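import Crest.Agent.X212.Mxb34.Main_Mg
import Crest.Agent.X212.Klp2.MxC

/-! Row 212, **HD-MIX** (helper22): the plug. -/

namespace Crest.Agent.X212.Glu22

variable {κ lam : Type} [Fintype κ] [Fintype lam] [DecidableEq lam] (Lm : G75.LM κ lam)

theorem pr : Klp2.Mx.PrStmt Lm :=
  fun _ _ _ _ _ _ _ _ _ _ _ _ _ _ _ _ _ _ hy hw ht hS hΛ hB hp ho hτ hρ ρa ρs ρo hj hK =>
    pR hy hw ht hS hΛ hB hp ho hτ hρ ρa ρs ρo hj hK

/-- **MIX** -/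
theorem mix : Hd82.MixStmt Lm := Klp2.Mx.mix_of (pr Lm) (Mxb34.mxb Lm)

end Crest.Agent.X212.Glu22
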